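import Mathlib

/-!
The surfaces with torsion of order two exist: for all parameters with `p 0 ≠ 0` there is a field
generated by a solution of the three equations, with `y, k` algebraically independent.
-/

set_option linter.unusedSectionVars false
set_option linter.unusedVariables false
set_option linter.unusedSimpArgs false

namespace Vale.Agent.P297.H637.Ex

section core

variable {Ω : Type} [Field Ω] [IsAlgClosed Ω]

/-- The solution of the equations. -/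
theorem core (k U V A B R1 R2 R3 : Ω) (hk : k ≠ 0) (hR : R2 * U * V ≠ 0)
    (hd : k ^ 2 - k ≠ 0)
    (hN : -(U ^ 2 - k * V ^ 2) * (k ^ 2 - k) * R1 +
      (R2 * (k ^ 2 - k) + ((1 + A + B) * k - B * k ^ 2 - A) * (U ^ 2 - k * V ^ 2)) *
        (k ^ 2 * V ^ 2 - U ^ 2) ≠ 0) :
    ∃ x s t : Ω, x * (k ^ 2 * t - s) + U ^ 2 * t - V ^ 2 * s = R1 ∧
      x * (s - k * t + (1 + A + B) * k - B * k ^ 2 - A) = R2 ∧
      x * ((s + 2 * A * k) * (t - 2 * B) + (A + B * k) ^ 2) = R3 := by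
  obtain ⟨M, hM⟩ : ∃ M, M = (1 + A + B) * k - B * k ^ 2 - A := ⟨_, rfl⟩
  rw [← hM] at hN
  obtain ⟨d1, hd1⟩ : ∃ d1, d1 = k ^ 2 - k := ⟨_, rfl⟩
  obtain ⟨d0, hd0⟩ : ∃ d0, d0 = U ^ 2 - k * V ^ 2 := ⟨_, rfl⟩
  rw [← hd1] at hd hN
  rw [← hd0] at hN
  obtain ⟨n2, hn2⟩ : ∃ z, z = -M * k ^ 2 + 2 * A * k * d1 := ⟨_, rfl⟩
  obtain ⟨n1, hn1⟩ : ∃ z, z = k * R1 + R2 * k ^ 2 - M * U ^ 2 + 2 * A * k * d0 := ⟨_, rfl⟩
  obtain ⟨m2, hm2⟩ : ∃ z, z = -M - 2 * B * d1 := ⟨_, rfl⟩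
  obtain ⟨m1, hm1⟩ : ∃ z, z = R1 + R2 - M * V ^ 2 - 2 * B * d0 := ⟨_, rfl⟩
  obtain ⟨e, he⟩ : ∃ z, z = (A + B * k) ^ 2 := ⟨_, rfl⟩
  have h4 : n2 * m2 + e * d1 ^ 2 = k ^ 4 := by
    rw [hn2, hm2, he, hM, hd1]
    ring
  obtain ⟨x, hx⟩ := IsAlgClosed.exists_root
    (Polynomial.C (k ^ 4) * Polynomial.X ^ 4 +
      Polynomial.C (n2 * m1 + n1 * m2 + 2 * e * d1 * d0 - R3 * d1 ^ 2) * Polynomial.X ^ 3 +
      Polynomial.C (n2 * (R2 * V ^ 2) + n1 * m1 + R2 * U ^ 2 * m2 + e * d0 ^ 2 -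
        2 * R3 * d1 * d0) * Polynomial.X ^ 2 +
      Polynomial.C (n1 * (R2 * V ^ 2) + R2 * U ^ 2 * m1 - R3 * d0 ^ 2) * Polynomial.X +
      Polynomial.C (R2 * U ^ 2 * (R2 * V ^ 2))) (by
        intro h0
        have h1 := Polynomial.eq_C_of_degree_eq_zero h0
        have h2 := congrArg (fun q : Polynomial Ω => q.coeff 4) h1
        simp only [Polynomial.coeff_add, Polynomial.coeff_C_mul, Polynomial.coeff_X_pow,
          Polynomial.coeff_X, Polynomial.coeff_C] at h2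
        norm_num at h2
        exact hk h2)
  rw [Polynomial.IsRoot.def] at hx
  simp only [Polynomial.eval_add, Polynomial.eval_mul, Polynomial.eval_C, Polynomial.eval_pow,
    Polynomial.eval_X] at hx
  rw [← h4] at hx
  obtain ⟨D, hD⟩ : ∃ D, D = d1 * x + d0 := ⟨_, rfl⟩
  obtain ⟨Ns, hNs⟩ : ∃ z, z = k * x * R1 + (R2 - M * x) * (k ^ 2 * x + U ^ 2) := ⟨_, rfl⟩
  obtain ⟨Nt, hNt⟩ : ∃ z, z = x * R1 + (R2 - M * x) * (x + V ^ 2) := ⟨_, rfl⟩
  have key : (Ns + 2 * A * k * x * D) * (Nt - 2 * B * x * D) + e * x ^ 2 * D ^ 2 -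
      R3 * x * D ^ 2 = 0 := by
    rw [hNs, hNt, hD]
    rw [hn2, hn1, hm2, hm1] at hx
    linear_combination hx
  have hx0 : x ≠ 0 := by
    rintro rfl
    have h1 : (R2 * U * V) ^ 2 = 0 := by linear_combination hx
    exact hR (pow_eq_zero_iff two_ne_zero |>.1 h1)
  have hst : Ns - k * Nt = (R2 - M * x) * D := by
    rw [hNs, hNt, hD, hd1, hd0]
    ring
  have hD0 : D ≠ 0 := by
    intro h0
    rw [h0] at key hst
    have h1 : k * Nt ^ 2 = 0 := by linear_combination key - Nt * hst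
    have h2 : Nt = 0 := pow_eq_zero_iff two_ne_zero |>.1 ((mul_eq_zero.1 h1).resolve_left hk)
    apply hN
    have h3 : d1 * x = -d0 := by linear_combination h0 - hD
    rw [hNt] at h2
    have h5 : k ^ 2 * V ^ 2 - U ^ 2 = -d0 + V ^ 2 * d1 := by
      rw [hd0, hd1]
      ring
    rw [h5]
    have h6 : d1 ^ 2 * (x * R1 + (R2 - M * x) * (x + V ^ 2)) = 0 := by rw [h2, mul_zero]
    have h7 : d1 ^ 2 * (x * R1 + (R2 - M * x) * (x + V ^ 2)) =
        (d1 * x) * d1 * R1 + (R2 * d1 - M * (d1 * x)) * (d1 * x + V ^ 2 * d1) := by ring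
    rw [h7, h3] at h6
    linear_combination h6
  have hxD : x * D ≠ 0 := mul_ne_zero hx0 hD0
  refine ⟨x, Ns / (x * D), Nt / (x * D), ?_, ?_, ?_⟩
  · have h1 : (x * k ^ 2 + U ^ 2) * Nt - (x + V ^ 2) * Ns = R1 * (x * D) := by
      rw [hNs, hNt, hD, hd1, hd0]
      ring
    field_simp
    linear_combination h1
  · rw [show x * (Ns / (x * D) - k * (Nt / (x * D)) + (1 + A + B) * k - B * k ^ 2 - A) =
      x * ((Ns - k * Nt) / (x * D) + M) by rw [hM]; ring, hst]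
    field_simp
    ring
  · rw [he] at key
    have h1 : x * ((Ns / (x * D) + 2 * A * k) * (Nt / (x * D) - 2 * B) + (A + B * k) ^ 2) - R3 =
        ((Ns + 2 * A * k * x * D) * (Nt - 2 * B * x * D) + (A + B * k) ^ 2 * x ^ 2 * D ^ 2 -
          R3 * x * D ^ 2) / (x * D ^ 2) := by
      field_simp
    rw [key, zero_div] at h1
    exact sub_eq_zero.1 h1

end core

section nz

variable {Ω : Type} [Field Ω] [Algebra ℂ Ω] {y k : Ω}

theorem nz (h : AlgebraicIndependent ℂ ![y, k]) (G : MvPolynomial (Fin 2) ℂ) (y0 k0 : ℂ)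
    (hG : MvPolynomial.eval ![y0, k0] G ≠ 0) : MvPolynomial.aeval ![y, k] G ≠ 0 := by
  intro h0
  apply hG
  have h1 : G = 0 := by
    apply h
    rw [h0, map_zero]
  rw [h1, map_zero]

/-- Two independent elements of an algebraically closed field. -/
theorem exists_omega : ∃ (Ω : Type) (_ : Field Ω) (_ : Algebra ℂ Ω) (_ : IsAlgClosed Ω)
    (y k : Ω), AlgebraicIndependent ℂ ![y, k] := by
  have hinj : Function.Injective (IsScalarTower.toAlgHom ℂ (MvPolynomial (Fin 2) ℂ)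
      (AlgebraicClosure (FractionRing (MvPolynomial (Fin 2) ℂ)))) := by
    have h1 : Function.Injective (algebraMap (MvPolynomial (Fin 2) ℂ)
        (AlgebraicClosure (FractionRing (MvPolynomial (Fin 2) ℂ)))) := by
      rw [IsScalarTower.algebraMap_eq (MvPolynomial (Fin 2) ℂ)
        (FractionRing (MvPolynomial (Fin 2) ℂ))]
      exact (algebraMap (FractionRing (MvPolynomial (Fin 2) ℂ)) _).injective.comp
        (IsFractionRing.injective _ _)
    exact h1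
  refine ⟨AlgebraicClosure (FractionRing (MvPolynomial (Fin 2) ℂ)), inferInstance, inferInstance,
    inferInstance, IsScalarTower.toAlgHom ℂ (MvPolynomial (Fin 2) ℂ)
      (AlgebraicClosure (FractionRing (MvPolynomial (Fin 2) ℂ))) (MvPolynomial.X 0),
    IsScalarTower.toAlgHom ℂ (MvPolynomial (Fin 2) ℂ)
      (AlgebraicClosure (FractionRing (MvPolynomial (Fin 2) ℂ))) (MvPolynomial.X 1), ?_⟩
  have h1 := (MvPolynomial.algebraicIndependent_X (Fin 2) ℂ).map' hinj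
  have h2 : ![IsScalarTower.toAlgHom ℂ (MvPolynomial (Fin 2) ℂ)
      (AlgebraicClosure (FractionRing (MvPolynomial (Fin 2) ℂ))) (MvPolynomial.X 0),
    IsScalarTower.toAlgHom ℂ (MvPolynomial (Fin 2) ℂ)
      (AlgebraicClosure (FractionRing (MvPolynomial (Fin 2) ℂ))) (MvPolynomial.X 1)] =
      IsScalarTower.toAlgHom ℂ (MvPolynomial (Fin 2) ℂ)
        (AlgebraicClosure (FractionRing (MvPolynomial (Fin 2) ℂ))) ∘ MvPolynomial.X := by
    funext i
    fin_cases i <;> rfl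
  rw [h2]
  exact h1

end nz

section main

open MvPolynomial

/-- The field generated by five elements. -/
theorem gen5 {Ω : Type} [Field Ω] [Algebra ℂ Ω] (x k y s t : Ω) :
    ∃ (K : Type) (_ : Field K) (_ : Algebra ℂ K) (f : K →ₐ[ℂ] Ω) (x' k' y' s' t' : K),
      f x' = x ∧ f k' = k ∧ f y' = y ∧ f s' = s ∧ f t' = t ∧
        IntermediateField.adjoin ℂ {x', k', y', s', t'} = ⊤ := by
  have hx : x ∈ IntermediateField.adjoin ℂ {x, k, y, s, t} :=
    IntermediateField.subset_adjoin _ _ (by simp)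
  have hk : k ∈ IntermediateField.adjoin ℂ {x, k, y, s, t} :=
    IntermediateField.subset_adjoin _ _ (by simp)
  have hy : y ∈ IntermediateField.adjoin ℂ {x, k, y, s, t} :=
    IntermediateField.subset_adjoin _ _ (by simp)
  have hs : s ∈ IntermediateField.adjoin ℂ {x, k, y, s, t} :=
    IntermediateField.subset_adjoin _ _ (by simp)
  have ht : t ∈ IntermediateField.adjoin ℂ {x, k, y, s, t} :=
    IntermediateField.subset_adjoin _ _ (by simp)
  refine ⟨IntermediateField.adjoin ℂ {x, k, y, s, t}, inferInstance, inferInstance,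
    (IntermediateField.adjoin ℂ {x, k, y, s, t}).val, ⟨x, hx⟩, ⟨k, hk⟩, ⟨y, hy⟩, ⟨s, hs⟩, ⟨t, ht⟩,
    rfl, rfl, rfl, rfl, rfl, ?_⟩
  apply IntermediateField.lift_injective
  rw [IntermediateField.lift_adjoin, IntermediateField.lift_top]
  simp only [Set.image_insert_eq, Set.image_singleton]

theorem exists_pt (a b : ℂ) : ∃ y : ℂ, (y + a) * (y + b) ≠ 0 := by
  by_contra hc
  push Not at hc
  have h0 := hc 0
  have h1 := hc 1
  have h2 := hc 2
  have h3 : (2 : ℂ) = 0 := by linear_combination h0 - 2 * h1 + h2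
  exact two_ne_zero h3

theorem exists_pt4 (p : Fin 9 → ℂ) : ∃ y : ℂ, (p 8 - y ^ 2 + p 1 * y) * (y + p 5) * (y + p 6) +
    p 2 * (y + p 5) ^ 3 + p 0 * (y + p 6) ^ 3 ≠ 0 := by
  by_contra hc
  push Not at hc
  have h0 := hc 0
  have h1 := hc 1
  have h2 := hc 2
  have h3 := hc 3
  have h4 := hc 4
  have h5 : (24 : ℂ) = 0 := by linear_combination -h0 + 4 * h1 - 6 * h2 + 4 * h3 - h4
  norm_num at h5

/-- **The surfaces with torsion of order two exist.** -/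
theorem two (p : Fin 9 → ℂ) (h : p 0 ≠ 0) :
    ∃ (K : Type) (_ : Field K) (_ : Algebra ℂ K) (x k y s t : K),
      AlgebraicIndependent ℂ ![y, k] ∧ IntermediateField.adjoin ℂ {x, k, y, s, t} = ⊤ ∧
      x * (k ^ 2 * t - s) + (y + algebraMap ℂ K (p 5)) ^ 2 * t -
          (y + algebraMap ℂ K (p 6)) ^ 2 * s =
        (2 * y + algebraMap ℂ K (p 3)) * (y + algebraMap ℂ K (p 5)) +
          (2 * y + algebraMap ℂ K (p 4)) * k * (y + algebraMap ℂ K (p 6)) ∧
      x * (s - k * t + (1 + algebraMap ℂ K (p 0) / (y + algebraMap ℂ K (p 5)) +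
          algebraMap ℂ K (p 2) / (y + algebraMap ℂ K (p 6))) * k -
          algebraMap ℂ K (p 2) / (y + algebraMap ℂ K (p 6)) * k ^ 2 -
          algebraMap ℂ K (p 0) / (y + algebraMap ℂ K (p 5))) =
        algebraMap ℂ K (p 8) - y ^ 2 + algebraMap ℂ K (p 1) * y +
          algebraMap ℂ K (p 2) / (y + algebraMap ℂ K (p 6)) * (y + algebraMap ℂ K (p 5)) ^ 2 +
          algebraMap ℂ K (p 0) / (y + algebraMap ℂ K (p 5)) * (y + algebraMap ℂ K (p 6)) ^ 2 ∧
      x * ((s + 2 * (algebraMap ℂ K (p 0) / (y + algebraMap ℂ K (p 5))) * k) *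
          (t - 2 * (algebraMap ℂ K (p 2) / (y + algebraMap ℂ K (p 6)))) +
          (algebraMap ℂ K (p 0) / (y + algebraMap ℂ K (p 5)) +
            algebraMap ℂ K (p 2) / (y + algebraMap ℂ K (p 6)) * k) ^ 2) =
        algebraMap ℂ K (p 7) - y ^ 2 + algebraMap ℂ K (p 0) / (y + algebraMap ℂ K (p 5)) *
            (2 * y + algebraMap ℂ K (p 4)) * (y + algebraMap ℂ K (p 6)) +
          algebraMap ℂ K (p 2) / (y + algebraMap ℂ K (p 6)) * (2 * y + algebraMap ℂ K (p 3)) *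
            (y + algebraMap ℂ K (p 5)) -
          (algebraMap ℂ K (p 0) / (y + algebraMap ℂ K (p 5)) * (y + algebraMap ℂ K (p 6)) +
            algebraMap ℂ K (p 2) / (y + algebraMap ℂ K (p 6)) * (y + algebraMap ℂ K (p 5))) ^ 2 := by
  obtain ⟨Ω, _, _, _, y, k, hyk⟩ := exists_omega
  have c := fun z : ℂ => (MvPolynomial.aeval_C (R := ℂ) ![y, k] z)
  have e0 : MvPolynomial.aeval ![y, k] (X 0 : MvPolynomial (Fin 2) ℂ) = y := by
    rw [aeval_X]
    rfl
  have e1 : MvPolynomial.aeval ![y, k] (X 1 : MvPolynomial (Fin 2) ℂ) = k := by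
    rw [aeval_X]
    rfl
  have hk : k ≠ 0 := by
    have h1 := nz hyk (X 1) 0 1 (by simp)
    rwa [e1] at h1
  have hd : k ^ 2 - k ≠ 0 := by
    have h1 := nz hyk (X 1 ^ 2 - X 1) 0 2 (by
      simp
      norm_num)
    rwa [map_sub, map_pow, e1] at h1
  have hU : y + algebraMap ℂ Ω (p 5) ≠ 0 := by
    have h1 := nz hyk (X 0 + C (p 5)) (1 - p 5) 0 (by simp)
    rwa [map_add, e0, c] at h1
  have hV : y + algebraMap ℂ Ω (p 6) ≠ 0 := by
    have h1 := nz hyk (X 0 + C (p 6)) (1 - p 6) 0 (by simp)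
    rwa [map_add, e0, c] at h1
  obtain ⟨U, hU'⟩ : ∃ U, U = y + algebraMap ℂ Ω (p 5) := ⟨_, rfl⟩
  obtain ⟨V, hV'⟩ : ∃ V, V = y + algebraMap ℂ Ω (p 6) := ⟨_, rfl⟩
  rw [← hU'] at hU
  rw [← hV'] at hV
  obtain ⟨A, hA⟩ : ∃ A, A = algebraMap ℂ Ω (p 0) / U := ⟨_, rfl⟩
  obtain ⟨B, hB⟩ : ∃ B, B = algebraMap ℂ Ω (p 2) / V := ⟨_, rfl⟩
  obtain ⟨R1, h1⟩ : ∃ z, z = (2 * y + algebraMap ℂ Ω (p 3)) * U +
    (2 * y + algebraMap ℂ Ω (p 4)) * k * V := ⟨_, rfl⟩
  obtain ⟨R2, h2⟩ : ∃ z, z = algebraMap ℂ Ω (p 8) - y ^ 2 + algebraMap ℂ Ω (p 1) * y +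
    B * U ^ 2 + A * V ^ 2 := ⟨_, rfl⟩
  have hR2 : R2 * U * V = (algebraMap ℂ Ω (p 8) - y ^ 2 + algebraMap ℂ Ω (p 1) * y) * U * V +
      algebraMap ℂ Ω (p 2) * U ^ 3 + algebraMap ℂ Ω (p 0) * V ^ 3 := by
    rw [h2, hA, hB]
    field_simp
  have hR : R2 * U * V ≠ 0 := by
    obtain ⟨y0, hy0⟩ := exists_pt4 p
    have h3 := nz hyk ((C (p 8) - X 0 ^ 2 + C (p 1) * X 0) * (X 0 + C (p 5)) * (X 0 + C (p 6)) +
      C (p 2) * (X 0 + C (p 5)) ^ 3 + C (p 0) * (X 0 + C (p 6)) ^ 3) y0 0 (by simpa using hy0)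
    simp only [map_add, map_mul, map_sub, map_pow, e0, c] at h3
    rw [hR2, hU', hV']
    exact h3
  have hN : -(U ^ 2 - k * V ^ 2) * (k ^ 2 - k) * R1 +
      (R2 * (k ^ 2 - k) + ((1 + A + B) * k - B * k ^ 2 - A) * (U ^ 2 - k * V ^ 2)) *
        (k ^ 2 * V ^ 2 - U ^ 2) ≠ 0 := by
    intro h0
    obtain ⟨y0, hy0⟩ := exists_pt (p 5) (p 6)
    have h3 := nz hyk (-((X 0 + C (p 5)) ^ 2 - X 1 * (X 0 + C (p 6)) ^ 2) * (X 1 ^ 2 - X 1) *
      ((2 * X 0 + C (p 3)) * (X 0 + C (p 5)) + (2 * X 0 + C (p 4)) * X 1 * (X 0 + C (p 6))) *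
        ((X 0 + C (p 5)) * (X 0 + C (p 6))) +
      (((C (p 8) - X 0 ^ 2 + C (p 1) * X 0) * (X 0 + C (p 5)) * (X 0 + C (p 6)) +
        C (p 2) * (X 0 + C (p 5)) ^ 3 + C (p 0) * (X 0 + C (p 6)) ^ 3) * (X 1 ^ 2 - X 1) +
        ((X 0 + C (p 5)) * (X 0 + C (p 6)) * X 1 + C (p 0) * (X 0 + C (p 6)) * (X 1 - 1) +
          C (p 2) * (X 0 + C (p 5)) * (X 1 - X 1 ^ 2)) *
          ((X 0 + C (p 5)) ^ 2 - X 1 * (X 0 + C (p 6)) ^ 2)) *
        (X 1 ^ 2 * (X 0 + C (p 6)) ^ 2 - (X 0 + C (p 5)) ^ 2)) y0 0 (by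
          simp only [map_add, map_mul, map_sub, map_neg, map_pow, map_one, map_ofNat, eval_X,
            eval_C, Matrix.cons_val_zero, Matrix.cons_val_one, Matrix.cons_val_fin_one]
          have h4 : p 0 * (y0 + p 5) ^ 4 * (y0 + p 6) ≠ 0 :=
            mul_ne_zero (mul_ne_zero h (pow_ne_zero 4 (left_ne_zero_of_mul hy0)))
              (right_ne_zero_of_mul hy0)
          intro h5
          apply h4
          linear_combination h5)
    simp only [map_add, map_mul, map_sub, map_neg, map_pow, map_one, map_ofNat, e0, e1, c] at h3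
    rw [← hU', ← hV', ← hR2, ← h1] at h3
    apply h3
    have e2 : U * V * k + algebraMap ℂ Ω (p 0) * V * (k - 1) +
        algebraMap ℂ Ω (p 2) * U * (k - k ^ 2) = ((1 + A + B) * k - B * k ^ 2 - A) * (U * V) := by
      rw [hA, hB]
      field_simp
      ring
    rw [e2]
    linear_combination (U * V) * h0
  obtain ⟨x, s, t, q1, q2, q3⟩ := core k U V A B R1 R2
    (algebraMap ℂ Ω (p 7) - y ^ 2 + A * (2 * y + algebraMap ℂ Ω (p 4)) * V +
      B * (2 * y + algebraMap ℂ Ω (p 3)) * U - (A * V + B * U) ^ 2) hk hR hd hN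
  rw [h1] at q1
  rw [h2] at q2
  rw [hA, hB, hU', hV'] at q2 q3
  rw [hU', hV'] at q1
  obtain ⟨K, _, _, f, x', k', y', s', t', fx, fk, fy, fs, ft, htop⟩ := gen5 x k y s t
  have hf : Function.Injective f := f.toRingHom.injective
  refine ⟨K, inferInstance, inferInstance, x', k', y', s', t', ?_, htop, ?_, ?_, ?_⟩
  · apply AlgebraicIndependent.of_comp f
    convert hyk using 1
    funext i
    fin_cases i
    · exact fy
    · exact fk
  · apply hf
    simp only [map_add, map_mul, map_sub, map_pow, map_div₀, map_one, map_ofNat,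
      AlgHom.commutes, fx, fk, fy, fs, ft]
    exact q1
  · apply hf
    simp only [map_add, map_mul, map_sub, map_pow, map_div₀, map_one, map_ofNat,
      AlgHom.commutes, fx, fk, fy, fs, ft]
    exact q2
  · apply hf
    simp only [map_add, map_mul, map_sub, map_pow, map_div₀, map_one, map_ofNat,
      AlgHom.commutes, fx, fk, fy, fs, ft]
    exact q3

end main

end Vale.Agent.P297.H637.Ex
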